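import Crest.Agent.R163.Q3.D.P2.S0
import Crest.Agent.R163.Q3.D.P2.H

set_option autoImplicit false
set_option maxRecDepth 100000
set_option linter.all false
set_option Elab.async false

namespace Crest.Agent.R163.P2

theorem p0_2_27 : Ok2 par f2 ((((((((Box3.unit.r 1).r 0).r 1).r 0).r 1).r 0).r 1).r 0) (selB2 0 (selB2 0 (selB2 0 (selB2 0 (selB2 0 C0 9457469153924060397567) 91670711809) 125829642) 692455) 751) :=
  Ok2.run hw hf2 ⟨517,19,19,13,13⟩ 58
    (.split 2 (.chk false 0) (.split 1 (.part 2 (.chk false 0) (.split 0 (.chk false 0) (.split 2 (.chk false 0) (.split 0 (.chk false 0) (.split 1 (.chk false 0) (.chk false 0)))))) (.chk false 0)))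
    (by decide +kernel)

theorem p0_2_28 : Ok2 par f2 (((((((Box3.unit.r 1).r 0).r 1).r 0).r 1).r 0).r 1) (selB2 1 (selB2 0 (selB2 0 (selB2 0 (selB2 0 C0 9457469153924060397567) 91670711809) 125829642) 692455) 751) :=
  Ok2.run hw hf2 ⟨394,19,19,13,13⟩ 58
    (.chk false 2048)
    (by decide +kernel)

theorem p0_2_29 : Ok2 par f2 ((((((Box3.unit.r 1).r 0).r 1).r 0).r 1).l 0) (selB2 0 (selB2 0 (selB2 0 (selB2 0 C0 9457469153924060397567) 91670711809) 125829642) 692455) :=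
  Ok2.run hw hf2 ⟨372,19,19,13,13⟩ 58
    (.chk false 2048)
    (by decide +kernel)

theorem p0_2_30 : Ok2 par f2 (((((Box3.unit.r 1).r 0).r 1).r 0).r 1) (selB2 1 (selB2 0 (selB2 0 (selB2 0 C0 9457469153924060397567) 91670711809) 125829642) 692455) :=
  Ok2.run hw hf2 ⟨356,19,19,13,13⟩ 58
    (.chk false 2048)
    (by decide +kernel)

theorem p0_2_31 : Ok2 par f2 ((((Box3.unit.r 1).r 0).r 1).l 0) (selB2 0 (selB2 0 (selB2 0 C0 9457469153924060397567) 91670711809) 125829642) :=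
  Ok2.run hw hf2 ⟨327,19,19,13,13⟩ 58
    (.chk false 2048)
    (by decide +kernel)

theorem p0_2_32 : Ok2 par f2 (((Box3.unit.r 1).r 0).r 1) (selB2 1 (selB2 0 (selB2 0 C0 9457469153924060397567) 91670711809) 125829642) :=
  Ok2.run hw hf2 ⟨314,19,19,13,13⟩ 58
    (.chk false 2048)
    (by decide +kernel)

theorem p0_2_33 : Ok2 par f2 ((Box3.unit.r 1).l 0) (selB2 0 (selB2 0 C0 9457469153924060397567) 91670711809) :=
  Ok2.run hw hf2 ⟨292,19,19,13,13⟩ 58
    (.chk false 2048)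
    (by decide +kernel)

theorem p0_2_34 : Ok2 par f2 (Box3.unit.r 1) (selB2 1 (selB2 0 C0 9457469153924060397567) 91670711809) :=
  Ok2.run hw hf2 ⟨263,19,19,13,13⟩ 58
    (.chk false 512)
    (by decide +kernel)

theorem p0_2_35 : Ok2 par f2 Box3.unit (selB2 1 C0 9457469153924060397567) :=
  Ok2.run hw hf2 ⟨235,19,19,13,13⟩ 58
    (.chk false 2048)
    (by decide +kernel)

theorem p0_3_0 : Ok2 par f3 (((((((Box3.unit.r 1).r 0).r 1).l 0).r 1).r 0).l 2) (selB2 0 (selB2 0 (selB2 0 (selB2 0 C0 12594514515809791901695) 256) 1001) 5) :=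
  Ok2.run hw hf3 ⟨391,19,19,16,13⟩ 58
    (.chk false 0)
    (by decide +kernel)

theorem p0_3_1 : Ok2 par f3 (((((((Box3.unit.r 1).r 0).r 1).l 0).r 1).r 0).r 2) (selB2 0 (selB2 0 (selB2 0 (selB2 0 C0 12594514515809791901695) 256) 1001) 5) :=
  Ok2.run hw hf3 ⟨481,19,19,16,13⟩ 58
    (.split 1 (.chk false 0) (.split 0 (.split 2 (.chk false 0) (.split 1 (.chk false 0) (.split 0 (.chk false 0) (.chk false 0)))) (.split 2 (.chk false 0) (.chk false 0))))
    (by decide +kernel)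

theorem p0_3_2 : Ok2 par f3 ((((((Box3.unit.r 1).r 0).r 1).l 0).r 1).r 0) (selB2 1 (selB2 0 (selB2 0 (selB2 0 C0 12594514515809791901695) 256) 1001) 5) :=
  Ok2.run hw hf3 ⟨369,19,19,16,13⟩ 58
    (.chk false 0)
    (by decide +kernel)

theorem p0_3_3 : Ok2 par f3 ((((((Box3.unit.r 1).r 0).r 1).l 0).r 1).l 0) (selB2 0 (selB2 0 (selB2 0 C0 12594514515809791901695) 256) 1001) :=
  Ok2.run hw hf3 ⟨364,19,19,16,13⟩ 58
    (.chk false 0)
    (by decide +kernel)

theorem p0_3_4 : Ok2 par f3 (((((Box3.unit.r 1).r 0).r 1).l 0).l 1) (selB2 0 (selB2 0 (selB2 0 C0 12594514515809791901695) 256) 1001) :=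
  Ok2.run hw hf3 ⟨345,19,19,16,13⟩ 58
    (.chk false 0)
    (by decide +kernel)

theorem p0_3_5 : Ok2 par f3 ((((Box3.unit.r 1).r 0).r 1).l 0) (selB2 1 (selB2 0 (selB2 0 C0 12594514515809791901695) 256) 1001) :=
  Ok2.run hw hf3 ⟨329,19,19,16,13⟩ 58
    (.chk false 0)
    (by decide +kernel)

theorem p0_3_6 : Ok2 par f3 (((((Box3.unit.r 1).r 0).r 1).r 0).l 1) (selB2 0 (selB2 0 (selB2 0 C0 12594514515809791901695) 256) 31) :=
  Ok2.run hw hf3 ⟨354,19,19,16,13⟩ 58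
    (.chk false 0)
    (by decide +kernel)

theorem p0_3_7 : Ok2 par f3 (((((Box3.unit.r 1).r 0).r 1).r 0).r 1) (selB2 0 (selB2 0 (selB2 0 C0 12594514515809791901695) 256) 31) :=
  Ok2.run hw hf3 ⟨399,19,19,16,13⟩ 58
    (.split 2 (.part 15 (.chk false 0) (.split 0 (.chk false 0) (.chk false 0))) (.split 0 (.chk false 0) (.chk false 0)))
    (by decide +kernel)

theorem p0_3_8 : Ok2 par f3 ((((Box3.unit.r 1).r 0).r 1).r 0) (selB2 1 (selB2 0 (selB2 0 C0 12594514515809791901695) 256) 31) :=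
  Ok2.run hw hf3 ⟨337,19,19,16,13⟩ 58
    (.chk false 0)
    (by decide +kernel)

theorem p0_3_9 : Ok2 par f3 (((Box3.unit.r 1).r 0).l 1) (selB2 0 (selB2 0 C0 12594514515809791901695) 256) :=
  Ok2.run hw hf3 ⟨307,19,19,16,13⟩ 58
    (.chk false 0)
    (by decide +kernel)

theorem p0_3_10 : Ok2 par f3 ((Box3.unit.r 1).r 0) (selB2 1 (selB2 0 C0 12594514515809791901695) 256) :=
  Ok2.run hw hf3 ⟨293,19,19,16,13⟩ 58
    (.chk false 0)
    (by decide +kernel)

theorem p0_3_11 : Ok2 par f3 ((Box3.unit.r 1).l 0) (selB2 0 C0 12594514515809791901695) :=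
  Ok2.run hw hf3 ⟨337,19,19,16,13⟩ 58
    (.part 2045 (.chk false 0) (.split 1 (.chk false 0) (.split 0 (.chk false 0) (.chk false 0))))
    (by decide +kernel)

theorem p0_3_12 : Ok2 par f3 (Box3.unit.l 1) (selB2 0 C0 12594514515809791901695) :=
  Ok2.run hw hf3 ⟨265,19,19,16,13⟩ 58
    (.chk false 0)
    (by decide +kernel)

theorem p0_3_13 : Ok2 par f3 Box3.unit (selB2 1 C0 12594514515809791901695) :=
  Ok2.run hw hf3 ⟨237,19,19,16,13⟩ 58
    (.chk false 2048)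
    (by decide +kernel)

theorem p0_4_0 : Ok2 par f4 ((((Box3.unit.r 0).r 1).r 0).l 1) (selB2 0 (selB2 0 (selB2 0 C0 18889465368528582868991) 16) 1) :=
  Ok2.run hw hf4 ⟨327,19,19,13,13⟩ 58
    (.chk false 0)
    (by decide +kernel)

theorem p0_4_1 : Ok2 par f4 ((((Box3.unit.r 0).r 1).r 0).r 1) (selB2 0 (selB2 0 (selB2 0 C0 18889465368528582868991) 16) 1) :=
  Ok2.run hw hf4 ⟨439,19,19,13,13⟩ 58
    (.part 6 (.chk false 0) (.split 2 (.chk false 0) (.split 0 (.chk false 0) (.split 2 (.chk false 0) (.split 0 (.chk false 0) (.split 1 (.chk false 0) (.split 2 (.chk false 0) (.chk false 0))))))))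
    (by decide +kernel)

theorem p0_4_2 : Ok2 par f4 (((Box3.unit.r 0).r 1).l 0) (selB2 0 (selB2 0 (selB2 0 C0 18889465368528582868991) 16) 1) :=
  Ok2.run hw hf4 ⟨305,19,19,13,13⟩ 58
    (.chk false 0)
    (by decide +kernel)

theorem p0_4_3 : Ok2 par f4 ((Box3.unit.r 0).r 1) (selB2 1 (selB2 0 (selB2 0 C0 18889465368528582868991) 16) 1) :=
  Ok2.run hw hf4 ⟨292,19,19,13,13⟩ 58
    (.chk false 0)
    (by decide +kernel)

theorem p0_4_4 : Ok2 par f4 ((Box3.unit.r 0).l 1) (selB2 0 (selB2 0 C0 18889465368528582868991) 16) :=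
  Ok2.run hw hf4 ⟨314,19,19,13,13⟩ 58
    (.part 11 (.chk false 0) (.split 1 (.chk false 0) (.chk false 0)))
    (by decide +kernel)

theorem p0_4_5 : Ok2 par f4 (Box3.unit.r 0) (selB2 1 (selB2 0 C0 18889465368528582868991) 16) :=
  Ok2.run hw hf4 ⟨263,19,19,13,13⟩ 58
    (.chk false 0)
    (by decide +kernel)

theorem p0_4_6 : Ok2 par f4 (Box3.unit.l 0) (selB2 0 C0 18889465368528582868991) :=
  Ok2.run hw hf4 ⟨263,19,19,13,13⟩ 58
    (.chk false 0)
    (by decide +kernel)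

theorem p0_4_7 : Ok2 par f4 Box3.unit (selB2 1 C0 18889465368528582868991) :=
  Ok2.run hw hf4 ⟨235,19,19,13,13⟩ 58
    (.chk false 2048)
    (by decide +kernel)

theorem p0_5_0 : Ok2 par f5 ((((((Box3.unit.r 1).l 0).l 0).r 1).r 2).l 1) (selB2 0 (selB2 0 (selB2 0 (selB2 0 (selB2 0 C0 15752384535684798480383) 125) 32567) 110) 2) :=
  Ok2.run hw hf5 ⟨369,19,19,13,13⟩ 58
    (.chk false 0)
    (by decide +kernel)

theorem p0_5_1 : Ok2 par f5 ((((((Box3.unit.r 1).l 0).l 0).r 1).r 2).r 1) (selB2 0 (selB2 0 (selB2 0 (selB2 0 (selB2 0 C0 15752384535684798480383) 125) 32567) 110) 2) :=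
  Ok2.run hw hf5 ⟨425,19,19,13,13⟩ 58
    (.split 0 (.part 29 (.chk false 0) (.split 2 (.chk false 0) (.split 0 (.chk false 0) (.chk false 0)))) (.part 30 (.chk false 0) (.split 2 (.chk false 0) (.split 0 (.chk false 0) (.chk false 0)))))
    (by decide +kernel)

theorem p0_5_2 : Ok2 par f5 (((((Box3.unit.r 1).l 0).l 0).r 1).r 2) (selB2 1 (selB2 0 (selB2 0 (selB2 0 (selB2 0 C0 15752384535684798480383) 125) 32567) 110) 2) :=
  Ok2.run hw hf5 ⟨353,19,19,13,13⟩ 58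
    (.chk false 0)
    (by decide +kernel)

theorem p0_5_3 : Ok2 par f5 (((((Box3.unit.r 1).l 0).l 0).r 1).l 2) (selB2 0 (selB2 0 (selB2 0 (selB2 0 C0 15752384535684798480383) 125) 32567) 110) :=
  Ok2.run hw hf5 ⟨440,19,19,13,13⟩ 58
    (.part 29 (.chk false 0) (.split 1 (.chk false 0) (.split 0 (.chk false 0) (.part 2 (.chk false 0) (.split 2 (.split 1 (.chk false 0) (.split 0 (.chk false 0) (.chk false 0))) (.chk false 0))))))
    (by decide +kernel)

theorem p0_5_4 : Ok2 par f5 ((((Box3.unit.r 1).l 0).l 0).l 1) (selB2 0 (selB2 0 (selB2 0 (selB2 0 C0 15752384535684798480383) 125) 32567) 110) :=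
  Ok2.run hw hf5 ⟨327,19,19,13,13⟩ 58
    (.chk false 0)
    (by decide +kernel)

theorem p0_5_5 : Ok2 par f5 (((Box3.unit.r 1).l 0).l 0) (selB2 1 (selB2 0 (selB2 0 (selB2 0 C0 15752384535684798480383) 125) 32567) 110) :=
  Ok2.run hw hf5 ⟨313,19,19,13,13⟩ 58
    (.chk false 0)
    (by decide +kernel)

theorem p0_5_6 : Ok2 par f5 (((((Box3.unit.r 1).l 0).r 0).r 1).l 2) (selB2 0 (selB2 0 (selB2 0 (selB2 0 (selB2 0 C0 15752384535684798480383) 125) 32567) 1924) 1) :=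
  Ok2.run hw hf5 ⟨414,19,19,13,13⟩ 58
    (.part 4 (.chk false 0) (.split 0 (.chk false 0) (.part 10 (.chk false 0) (.split 1 (.chk false 0) (.split 0 (.chk false 0) (.part 2 (.chk false 0) (.split 1 (.chk false 0) (.chk false 0))))))))
    (by decide +kernel)


end Crest.Agent.R163.P2
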