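import Crest.Agent.R163.Q3.D.P2.S0
import Crest.Agent.R163.Q3.D.P2.H

set_option autoImplicit false
set_option maxRecDepth 100000
set_option linter.all false
set_option Elab.async false

namespace Crest.Agent.R163.P2

theorem p0_5_7 : Ok2 par f5 (((((Box3.unit.r 1).l 0).r 0).r 1).r 2) (selB2 0 (selB2 0 (selB2 0 (selB2 0 (selB2 0 C0 15752384535684798480383) 125) 32567) 1924) 1) :=
  Ok2.run hw hf5 ⟨418,19,19,13,13⟩ 58
    (.part 1 (.chk false 0) (.split 0 (.part 5 (.chk false 0) (.split 1 (.chk false 0) (.split 2 (.chk false 0) (.split 0 (.chk false 0) (.chk false 0))))) (.chk false 0)))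
    (by decide +kernel)

theorem p0_5_8 : Ok2 par f5 ((((Box3.unit.r 1).l 0).r 0).r 1) (selB2 1 (selB2 0 (selB2 0 (selB2 0 (selB2 0 C0 15752384535684798480383) 125) 32567) 1924) 1) :=
  Ok2.run hw hf5 ⟨327,19,19,13,13⟩ 58
    (.chk false 0)
    (by decide +kernel)

theorem p0_5_9 : Ok2 par f5 ((((Box3.unit.r 1).l 0).r 0).l 1) (selB2 0 (selB2 0 (selB2 0 (selB2 0 C0 15752384535684798480383) 125) 32567) 1924) :=
  Ok2.run hw hf5 ⟨318,19,19,13,13⟩ 58
    (.chk false 0)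
    (by decide +kernel)

theorem p0_5_10 : Ok2 par f5 (((Box3.unit.r 1).l 0).r 0) (selB2 1 (selB2 0 (selB2 0 (selB2 0 C0 15752384535684798480383) 125) 32567) 1924) :=
  Ok2.run hw hf5 ⟨305,19,19,13,13⟩ 58
    (.chk false 0)
    (by decide +kernel)

theorem p0_5_11 : Ok2 par f5 ((Box3.unit.r 1).l 0) (selB2 1 (selB2 0 (selB2 0 C0 15752384535684798480383) 125) 32567) :=
  Ok2.run hw hf5 ⟨291,19,19,13,13⟩ 58
    (.chk false 0)
    (by decide +kernel)

theorem p0_5_12 : Ok2 par f5 (((((Box3.unit.r 1).r 0).l 0).r 1).l 0) (selB2 0 (selB2 0 (selB2 0 (selB2 0 (selB2 0 C0 15752384535684798480383) 125) 8339481) 135) 131) :=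
  Ok2.run hw hf5 ⟨429,19,19,13,13⟩ 58
    (.part 30 (.chk false 0) (.split 2 (.chk false 0) (.split 1 (.chk false 0) (.split 2 (.chk false 0) (.split 0 (.split 1 (.chk false 0) (.chk false 0)) (.chk false 0))))))
    (by decide +kernel)

theorem p0_5_13 : Ok2 par f5 (((((Box3.unit.r 1).r 0).l 0).r 1).r 0) (selB2 0 (selB2 0 (selB2 0 (selB2 0 (selB2 0 C0 15752384535684798480383) 125) 8339481) 135) 131) :=
  Ok2.run hw hf5 ⟨403,19,19,13,13⟩ 58
    (.part 9 (.chk false 0) (.split 1 (.chk false 0) (.part 1 (.chk false 0) (.split 2 (.split 0 (.chk false 0) (.chk false 0)) (.chk false 0)))))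
    (by decide +kernel)

theorem p0_5_14 : Ok2 par f5 ((((Box3.unit.r 1).r 0).l 0).r 1) (selB2 1 (selB2 0 (selB2 0 (selB2 0 (selB2 0 C0 15752384535684798480383) 125) 8339481) 135) 131) :=
  Ok2.run hw hf5 ⟨327,19,19,13,13⟩ 58
    (.chk false 0)
    (by decide +kernel)

theorem p0_5_15 : Ok2 par f5 ((((Box3.unit.r 1).r 0).l 0).l 1) (selB2 0 (selB2 0 (selB2 0 (selB2 0 C0 15752384535684798480383) 125) 8339481) 135) :=
  Ok2.run hw hf5 ⟨318,19,19,13,13⟩ 58
    (.chk false 0)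
    (by decide +kernel)

theorem p0_5_16 : Ok2 par f5 (((Box3.unit.r 1).r 0).l 0) (selB2 1 (selB2 0 (selB2 0 (selB2 0 C0 15752384535684798480383) 125) 8339481) 135) :=
  Ok2.run hw hf5 ⟨305,19,19,13,13⟩ 58
    (.chk false 0)
    (by decide +kernel)

theorem p0_5_17 : Ok2 par f5 (((Box3.unit.r 1).r 0).r 0) (selB2 0 (selB2 0 (selB2 0 C0 15752384535684798480383) 125) 8339481) :=
  Ok2.run hw hf5 ⟨355,19,19,13,13⟩ 58
    (.part 2110 (.chk false 0) (.split 1 (.chk false 0) (.part 23 (.chk false 0) (.split 0 (.chk false 0) (.chk false 0)))))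
    (by decide +kernel)

theorem p0_5_18 : Ok2 par f5 ((Box3.unit.r 1).r 0) (selB2 1 (selB2 0 (selB2 0 C0 15752384535684798480383) 125) 8339481) :=
  Ok2.run hw hf5 ⟨291,19,19,13,13⟩ 58
    (.chk false 0)
    (by decide +kernel)

theorem p0_5_19 : Ok2 par f5 (Box3.unit.l 1) (selB2 0 (selB2 0 C0 15752384535684798480383) 125) :=
  Ok2.run hw hf5 ⟨263,19,19,13,13⟩ 58
    (.chk false 0)
    (by decide +kernel)

theorem p0_5_20 : Ok2 par f5 Box3.unit (selB2 1 (selB2 0 C0 15752384535684798480383) 125) :=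
  Ok2.run hw hf5 ⟨277,25,25,13,13⟩ 58
    (.chk true 0)
    (by decide +kernel)

theorem p0_5_21 : Ok2 par f5 Box3.unit (selB2 1 C0 15752384535684798480383) :=
  Ok2.run hw hf5 ⟨235,19,19,13,13⟩ 58
    (.chk false 1024)
    (by decide +kernel)

theorem p0_6_0 : Ok2 par f6 Box3.unit (selB2 1 C0 18889465913881071190015) :=
  Ok2.run hw hf6 ⟨239,19,19,13,13⟩ 58
    (.chk false 512)
    (by decide +kernel)

theorem p0_6_1 : Ok2 par f6 Box3.unit (selB2 0 C0 18889465913881071190015) :=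
  Ok2.run hw hf6 ⟨322,25,25,13,13⟩ 58
    (.part 247 (.chk true 0) (.split 1 (.part 2 (.chk false 0) (.chk true 0)) (.part 2 (.chk false 0) (.chk true 0))))
    (by decide +kernel)

theorem p0_7_0 : Ok2 par f7 (((Box3.unit.l 0).l 1).l 0) (selB2 0 (selB2 0 (selB2 0 (selB2 0 (selB2 0 (selB2 0 C0 18889448985250291783679) 24863) 132) 5) 1824) 3) :=
  Ok2.run hw hf7 ⟨399,25,25,13,13⟩ 58
    (.part 20 (.chk false 0) (.part 3 (.chk true 0) (.split 1 (.chk false 0) (.chk false 0))))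
    (by decide +kernel)

theorem p0_7_1 : Ok2 par f7 (((Box3.unit.l 0).l 1).r 0) (selB2 0 (selB2 0 (selB2 0 (selB2 0 (selB2 0 (selB2 0 C0 18889448985250291783679) 24863) 132) 5) 1824) 3) :=
  Ok2.run hw hf7 ⟨390,25,25,13,13⟩ 58
    (.part 28 (.chk false 0) (.chk true 0))
    (by decide +kernel)

theorem p0_7_2 : Ok2 par f7 ((Box3.unit.l 0).l 1) (selB2 1 (selB2 0 (selB2 0 (selB2 0 (selB2 0 (selB2 0 C0 18889448985250291783679) 24863) 132) 5) 1824) 3) :=
  Ok2.run hw hf7 ⟨371,25,25,13,13⟩ 58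
    (.chk true 0)
    (by decide +kernel)

theorem p0_7_3 : Ok2 par f7 ((Box3.unit.l 0).l 1) (selB2 1 (selB2 0 (selB2 0 (selB2 0 (selB2 0 C0 18889448985250291783679) 24863) 132) 5) 1824) :=
  Ok2.run hw hf7 ⟨310,19,19,13,13⟩ 58
    (.chk false 0)
    (by decide +kernel)

theorem p0_7_4 : Ok2 par f7 (((Box3.unit.l 0).r 1).l 0) (selB2 0 (selB2 0 (selB2 0 (selB2 0 (selB2 0 C0 18889448985250291783679) 24863) 132) 5) 1968) :=
  Ok2.run hw hf7 ⟨427,25,25,13,13⟩ 58
    (.part 3 (.chk true 0) (.split 1 (.part 4 (.chk false 0) (.chk true 0)) (.part 4 (.chk false 0) (.chk true 0))))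
    (by decide +kernel)

theorem p0_7_5 : Ok2 par f7 (((Box3.unit.l 0).r 1).r 0) (selB2 0 (selB2 0 (selB2 0 (selB2 0 (selB2 0 C0 18889448985250291783679) 24863) 132) 5) 1968) :=
  Ok2.run hw hf7 ⟨391,25,25,13,13⟩ 58
    (.part 16 (.chk false 0) (.chk true 0))
    (by decide +kernel)

theorem p0_7_6 : Ok2 par f7 ((Box3.unit.l 0).r 1) (selB2 1 (selB2 0 (selB2 0 (selB2 0 (selB2 0 C0 18889448985250291783679) 24863) 132) 5) 1968) :=
  Ok2.run hw hf7 ⟨310,19,19,13,13⟩ 58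
    (.chk false 0)
    (by decide +kernel)

theorem p0_7_7 : Ok2 par f7 (Box3.unit.l 0) (selB2 1 (selB2 0 (selB2 0 (selB2 0 C0 18889448985250291783679) 24863) 132) 5) :=
  Ok2.run hw hf7 ⟨337,25,25,13,13⟩ 58
    (.chk true 0)
    (by decide +kernel)

theorem p0_7_8 : Ok2 par f7 (Box3.unit.l 0) (selB2 1 (selB2 0 (selB2 0 C0 18889448985250291783679) 24863) 132) :=
  Ok2.run hw hf7 ⟨282,19,19,13,13⟩ 58
    (.chk false 0)
    (by decide +kernel)

theorem p0_7_9 : Ok2 par f7 (Box3.unit.r 0) (selB2 1 (selB2 0 (selB2 0 C0 18889448985250291783679) 24863) 32644) :=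
  Ok2.run hw hf7 ⟨282,19,19,13,13⟩ 58
    (.chk false 0)
    (by decide +kernel)

theorem p0_7_10 : Ok2 par f7 (Box3.unit.r 0) (selB2 0 (selB2 0 (selB2 0 C0 18889448985250291783679) 24863) 32644) :=
  Ok2.run hw hf7 ⟨417,25,25,13,13⟩ 58
    (.part 61 (.chk true 0) (.split 1 (.split 2 (.split 1 (.chk true 0) (.chk true 0)) (.chk true 0)) (.chk true 0)))
    (by decide +kernel)

theorem p0_7_11 : Ok2 par f7 Box3.unit (selB2 1 (selB2 0 C0 18889448985250291783679) 24863) :=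
  Ok2.run hw hf7 ⟨302,25,25,13,13⟩ 58
    (.chk true 0)
    (by decide +kernel)

theorem p0_7_12 : Ok2 par f7 Box3.unit (selB2 1 C0 18889448985250291783679) :=
  Ok2.run hw hf7 ⟨253,19,19,13,13⟩ 58
    (.chk false 0)
    (by decide +kernel)


end Crest.Agent.R163.P2
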