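import Crest.Agent.R163.Q3.D.P2.P0_0
import Crest.Agent.R163.Q3.D.P2.P0_1
import Crest.Agent.R163.Q3.D.P2.P0_2

set_option autoImplicit false
set_option maxRecDepth 100000
set_option linter.all false
set_option Elab.async false

namespace Crest.Agent.R163.P2

theorem o0_7 : Ok2 par f7 Box3.unit C0 :=
  (Ok2.part 18889448985250291783679 p0_7_12 (Ok2.part 24863 p0_7_11 (Ok2.split 0 (Ok2.part 132 p0_7_8 (Ok2.part 5 p0_7_7 (Ok2.split 1 (Ok2.part 1824 p0_7_3 (Ok2.part 3 p0_7_2 (Ok2.split 0 p0_7_0 p0_7_1))) (Ok2.part 1968 p0_7_6 (Ok2.split 0 p0_7_4 p0_7_5))))) (Ok2.part 32644 p0_7_9 p0_7_10))))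
theorem o0_6 : Ok2 par f6 Box3.unit C0 :=
  (Ok2.part 18889465913881071190015 p0_6_0 p0_6_1)
theorem o0_5 : Ok2 par f5 Box3.unit C0 :=
  (Ok2.part 15752384535684798480383 p0_5_21 (Ok2.part 125 p0_5_20 (Ok2.split 1 p0_5_19 (Ok2.split 0 (Ok2.part 32567 p0_5_11 (Ok2.split 0 (Ok2.part 110 p0_5_5 (Ok2.split 1 p0_5_4 (Ok2.split 2 p0_5_3 (Ok2.part 2 p0_5_2 (Ok2.split 1 p0_5_0 p0_5_1))))) (Ok2.part 1924 p0_5_10 (Ok2.split 1 p0_5_9 (Ok2.part 1 p0_5_8 (Ok2.split 2 p0_5_6 p0_5_7)))))) (Ok2.part 8339481 p0_5_18 (Ok2.split 0 (Ok2.part 135 p0_5_16 (Ok2.split 1 p0_5_15 (Ok2.part 131 p0_5_14 (Ok2.split 0 p0_5_12 p0_5_13)))) p0_5_17))))))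
theorem o0_4 : Ok2 par f4 Box3.unit C0 :=
  (Ok2.part 18889465368528582868991 p0_4_7 (Ok2.split 0 p0_4_6 (Ok2.part 16 p0_4_5 (Ok2.split 1 p0_4_4 (Ok2.part 1 p0_4_3 (Ok2.split 0 p0_4_2 (Ok2.split 1 p0_4_0 p0_4_1)))))))
theorem o0_3 : Ok2 par f3 Box3.unit C0 :=
  (Ok2.part 12594514515809791901695 p0_3_13 (Ok2.split 1 p0_3_12 (Ok2.split 0 p0_3_11 (Ok2.part 256 p0_3_10 (Ok2.split 1 p0_3_9 (Ok2.split 0 (Ok2.part 1001 p0_3_5 (Ok2.split 1 p0_3_4 (Ok2.split 0 p0_3_3 (Ok2.part 5 p0_3_2 (Ok2.split 2 p0_3_0 p0_3_1))))) (Ok2.part 31 p0_3_8 (Ok2.split 1 p0_3_6 p0_3_7))))))))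
theorem o0_2 : Ok2 par f2 Box3.unit C0 :=
  (Ok2.part 9457469153924060397567 p0_2_35 (Ok2.split 1 (Ok2.part 11408503807 p0_2_14 (Ok2.split 1 (Ok2.part 176 p0_2_7 (Ok2.split 2 (Ok2.part 7 p0_2_2 (Ok2.split 0 p0_2_0 p0_2_1)) (Ok2.part 56 p0_2_6 (Ok2.split 0 (Ok2.split 0 p0_2_3 p0_2_4) p0_2_5)))) (Ok2.part 7 p0_2_13 (Ok2.split 0 p0_2_12 (Ok2.split 1 p0_2_11 (Ok2.part 5 p0_2_10 (Ok2.split 2 p0_2_8 p0_2_9))))))) (Ok2.part 91670711809 p0_2_34 (Ok2.split 0 p0_2_33 (Ok2.split 1 (Ok2.part 3145463 p0_2_15 p0_2_16) (Ok2.part 125829642 p0_2_32 (Ok2.split 0 p0_2_31 (Ok2.split 1 (Ok2.part 130866 p0_2_23 (Ok2.split 0 p0_2_22 (Ok2.split 1 p0_2_21 (Ok2.part 250 p0_2_20 (Ok2.split 0 p0_2_19 (Ok2.split 2 p0_2_17 p0_2_18)))))) (Ok2.part 692455 p0_2_30 (Ok2.split 0 p0_2_29 (Ok2.split 1 (Ok2.part 510 p0_2_24 p0_2_25) (Ok2.part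 751 p0_2_28 (Ok2.split 0 p0_2_26 p0_2_27)))))))))))))
theorem o0_1 : Ok2 par f1 Box3.unit C0 :=
  (Ok2.part 18884854245322714513407 (Ok2.part 68719476735 p0_1_0 p0_1_1) p0_1_2)
theorem o0_0 : Ok2 par f0 Box3.unit C0 :=
  p0_0_0

theorem pt0 : PtAll2 par C0 :=
  PtAll2.of_okD hw (OkD2.cover [f0.dom,f1.dom,f2.dom,f3.dom,f4.dom,f5.dom,f6.dom,f7.dom]
    (.split 0 (.leaf 0) (.split 1 (.split 0 (.leaf 1) (.leaf 2)) (.split 0 (.leaf 3) (.split 1 (.leaf 4) (.split 0 (.leaf 5) (.split 1 (.leaf 6) (.leaf 7)))))))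
    (by decide +kernel)
    (List.forall_mem_cons.2 ⟨OkD2.of_ok o0_0, (List.forall_mem_cons.2 ⟨OkD2.of_ok o0_1, (List.forall_mem_cons.2 ⟨OkD2.of_ok o0_2, (List.forall_mem_cons.2 ⟨OkD2.of_ok o0_3, (List.forall_mem_cons.2 ⟨OkD2.of_ok o0_4, (List.forall_mem_cons.2 ⟨OkD2.of_ok o0_5, (List.forall_mem_cons.2 ⟨OkD2.of_ok o0_6, (List.forall_mem_cons.2 ⟨OkD2.of_ok o0_7, (fun _ h => nomatch h)⟩)⟩)⟩)⟩)⟩)⟩)⟩)⟩))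

end Crest.Agent.R163.P2
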