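import Crest.Agent.R163.Q3.D.P2.S0
import Crest.Agent.R163.Q3.D.P2.H

set_option autoImplicit false
set_option maxRecDepth 100000
set_option linter.all false
set_option Elab.async false

namespace Crest.Agent.R163.P2

theorem p0_0_0 : Ok2 par f0 Box3.unit C0 :=
  Ok2.run hw hf0 ⟨233,19,19,13,13⟩ 58
    (.chk false 2048)
    (by decide +kernel)

theorem p0_1_0 : Ok2 par f1 Box3.unit (selB2 1 (selB2 1 C0 18884854245322714513407) 68719476735) :=
  Ok2.run hw hf1 ⟨237,19,19,16,13⟩ 58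
    (.chk false 2048)
    (by decide +kernel)

theorem p0_1_1 : Ok2 par f1 Box3.unit (selB2 0 (selB2 1 C0 18884854245322714513407) 68719476735) :=
  Ok2.run hw hf1 ⟨237,19,19,16,13⟩ 58
    (.chk false 0)
    (by decide +kernel)

theorem p0_1_2 : Ok2 par f1 Box3.unit (selB2 0 C0 18884854245322714513407) :=
  Ok2.run hw hf1 ⟨338,19,19,16,13⟩ 58
    (.split 0 (.chk false 0) (.split 1 (.split 2 (.part 1 (.chk false 0) (.split 0 (.chk false 0) (.chk false 0))) (.part 2 (.chk false 0) (.split 0 (.chk false 0) (.chk false 0)))) (.chk false 0)))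
    (by decide +kernel)

theorem p0_2_0 : Ok2 par f2 ((((Box3.unit.l 1).l 1).l 2).l 0) (selB2 0 (selB2 0 (selB2 0 (selB2 0 C0 9457469153924060397567) 11408503807) 176) 7) :=
  Ok2.run hw hf2 ⟨393,19,19,13,13⟩ 58
    (.split 2 (.split 0 (.chk false 0) (.part 1 (.chk false 0) (.split 1 (.chk false 0) (.part 1 (.chk false 0) (.split 1 (.chk false 0) (.chk false 0)))))) (.chk false 0))
    (by decide +kernel)

theorem p0_2_1 : Ok2 par f2 ((((Box3.unit.l 1).l 1).l 2).r 0) (selB2 0 (selB2 0 (selB2 0 (selB2 0 C0 9457469153924060397567) 11408503807) 176) 7) :=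
  Ok2.run hw hf2 ⟨393,19,19,13,13⟩ 58
    (.part 3 (.chk false 0) (.split 1 (.chk false 0) (.split 0 (.split 2 (.split 1 (.chk false 0) (.chk false 0)) (.chk false 0)) (.chk false 0))))
    (by decide +kernel)

theorem p0_2_2 : Ok2 par f2 (((Box3.unit.l 1).l 1).l 2) (selB2 1 (selB2 0 (selB2 0 (selB2 0 C0 9457469153924060397567) 11408503807) 176) 7) :=
  Ok2.run hw hf2 ⟨303,19,19,13,13⟩ 58
    (.chk false 0)
    (by decide +kernel)

theorem p0_2_3 : Ok2 par f2 (((((Box3.unit.l 1).l 1).r 2).l 0).l 0) (selB2 0 (selB2 0 (selB2 0 (selB2 0 C0 9457469153924060397567) 11408503807) 176) 56) :=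
  Ok2.run hw hf2 ⟨373,19,19,13,13⟩ 58
    (.part 3 (.chk false 0) (.split 0 (.chk false 0) (.chk false 0)))
    (by decide +kernel)

theorem p0_2_4 : Ok2 par f2 (((((Box3.unit.l 1).l 1).r 2).l 0).r 0) (selB2 0 (selB2 0 (selB2 0 (selB2 0 C0 9457469153924060397567) 11408503807) 176) 56) :=
  Ok2.run hw hf2 ⟨423,19,19,13,13⟩ 58
    (.part 5 (.chk false 0) (.split 2 (.chk false 0) (.split 2 (.chk false 0) (.split 0 (.split 2 (.chk false 0) (.split 0 (.chk false 0) (.chk false 0))) (.chk false 0)))))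
    (by decide +kernel)

theorem p0_2_5 : Ok2 par f2 ((((Box3.unit.l 1).l 1).r 2).r 0) (selB2 0 (selB2 0 (selB2 0 (selB2 0 C0 9457469153924060397567) 11408503807) 176) 56) :=
  Ok2.run hw hf2 ⟨331,19,19,13,13⟩ 58
    (.chk false 0)
    (by decide +kernel)

theorem p0_2_6 : Ok2 par f2 (((Box3.unit.l 1).l 1).r 2) (selB2 1 (selB2 0 (selB2 0 (selB2 0 C0 9457469153924060397567) 11408503807) 176) 56) :=
  Ok2.run hw hf2 ⟨303,19,19,13,13⟩ 58
    (.chk false 0)
    (by decide +kernel)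

theorem p0_2_7 : Ok2 par f2 ((Box3.unit.l 1).l 1) (selB2 1 (selB2 0 (selB2 0 C0 9457469153924060397567) 11408503807) 176) :=
  Ok2.run hw hf2 ⟨285,19,19,13,13⟩ 58
    (.chk false 0)
    (by decide +kernel)

theorem p0_2_8 : Ok2 par f2 (((((Box3.unit.l 1).r 1).r 0).r 1).l 2) (selB2 0 (selB2 0 (selB2 0 (selB2 0 C0 9457469153924060397567) 11408503807) 7) 5) :=
  Ok2.run hw hf2 ⟨379,19,19,13,13⟩ 58
    (.part 11 (.chk false 0) (.split 0 (.chk false 0) (.split 1 (.chk false 0) (.chk false 0))))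
    (by decide +kernel)

theorem p0_2_9 : Ok2 par f2 (((((Box3.unit.l 1).r 1).r 0).r 1).r 2) (selB2 0 (selB2 0 (selB2 0 (selB2 0 C0 9457469153924060397567) 11408503807) 7) 5) :=
  Ok2.run hw hf2 ⟨391,19,19,13,13⟩ 58
    (.part 4 (.chk false 0) (.split 0 (.part 5 (.chk false 0) (.split 1 (.split 0 (.chk false 0) (.chk false 0)) (.chk false 0))) (.part 3 (.chk false 0) (.split 1 (.chk false 0) (.chk false 0)))))
    (by decide +kernel)

theorem p0_2_10 : Ok2 par f2 ((((Box3.unit.l 1).r 1).r 0).r 1) (selB2 1 (selB2 0 (selB2 0 (selB2 0 C0 9457469153924060397567) 11408503807) 7) 5) :=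
  Ok2.run hw hf2 ⟨320,19,19,13,13⟩ 58
    (.chk false 0)
    (by decide +kernel)

theorem p0_2_11 : Ok2 par f2 ((((Box3.unit.l 1).r 1).r 0).l 1) (selB2 0 (selB2 0 (selB2 0 C0 9457469153924060397567) 11408503807) 7) :=
  Ok2.run hw hf2 ⟨382,19,19,13,13⟩ 58
    (.part 60 (.chk false 0) (.split 2 (.chk false 0) (.split 1 (.chk false 0) (.part 1 (.chk false 0) (.split 0 (.chk false 0) (.chk false 0))))))
    (by decide +kernel)

theorem p0_2_12 : Ok2 par f2 (((Box3.unit.l 1).r 1).l 0) (selB2 0 (selB2 0 (selB2 0 C0 9457469153924060397567) 11408503807) 7) :=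
  Ok2.run hw hf2 ⟨326,19,19,13,13⟩ 58
    (.part 59 (.chk false 0) (.split 1 (.chk false 0) (.chk false 0)))
    (by decide +kernel)

theorem p0_2_13 : Ok2 par f2 ((Box3.unit.l 1).r 1) (selB2 1 (selB2 0 (selB2 0 C0 9457469153924060397567) 11408503807) 7) :=
  Ok2.run hw hf2 ⟨277,19,19,13,13⟩ 58
    (.chk false 0)
    (by decide +kernel)

theorem p0_2_14 : Ok2 par f2 (Box3.unit.l 1) (selB2 1 (selB2 0 C0 9457469153924060397567) 11408503807) :=
  Ok2.run hw hf2 ⟨263,19,19,13,13⟩ 58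
    (.chk false 2048)
    (by decide +kernel)

theorem p0_2_15 : Ok2 par f2 (((Box3.unit.r 1).r 0).l 1) (selB2 1 (selB2 0 (selB2 0 C0 9457469153924060397567) 91670711809) 3145463) :=
  Ok2.run hw hf2 ⟨305,19,19,13,13⟩ 58
    (.chk false 2048)
    (by decide +kernel)

theorem p0_2_16 : Ok2 par f2 (((Box3.unit.r 1).r 0).l 1) (selB2 0 (selB2 0 (selB2 0 C0 9457469153924060397567) 91670711809) 3145463) :=
  Ok2.run hw hf2 ⟨367,19,19,13,13⟩ 58
    (.split 1 (.chk false 2048) (.part 19 (.chk false 2048) (.split 0 (.chk false 0) (.split 1 (.chk false 0) (.chk false 0)))))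
    (by decide +kernel)

theorem p0_2_17 : Ok2 par f2 (((((((((Box3.unit.r 1).r 0).r 1).r 0).l 1).r 0).r 1).r 0).l 2) (selB2 0 (selB2 0 (selB2 0 (selB2 0 (selB2 0 C0 9457469153924060397567) 91670711809) 125829642) 130866) 250) :=
  Ok2.run hw hf2 ⟨517,19,19,13,13⟩ 58
    (.part 2 (.chk false 2048) (.split 1 (.split 0 (.chk false 512) (.split 1 (.chk false 512) (.split 0 (.chk false 512) (.split 1 (.chk false 512) (.chk false 512))))) (.chk false 512)))
    (by decide +kernel)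

theorem p0_2_18 : Ok2 par f2 (((((((((Box3.unit.r 1).r 0).r 1).r 0).l 1).r 0).r 1).r 0).r 2) (selB2 0 (selB2 0 (selB2 0 (selB2 0 (selB2 0 C0 9457469153924060397567) 91670711809) 125829642) 130866) 250) :=
  Ok2.run hw hf2 ⟨481,19,19,13,13⟩ 58
    (.split 0 (.chk false 2048) (.split 1 (.part 2 (.chk false 2048) (.split 1 (.chk false 512) (.chk false 512))) (.chk false 2048)))
    (by decide +kernel)

theorem p0_2_19 : Ok2 par f2 ((((((((Box3.unit.r 1).r 0).r 1).r 0).l 1).r 0).r 1).l 0) (selB2 0 (selB2 0 (selB2 0 (selB2 0 (selB2 0 C0 9457469153924060397567) 91670711809) 125829642) 130866) 250) :=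
  Ok2.run hw hf2 ⟨408,19,19,13,13⟩ 58
    (.chk false 2048)
    (by decide +kernel)

theorem p0_2_20 : Ok2 par f2 (((((((Box3.unit.r 1).r 0).r 1).r 0).l 1).r 0).r 1) (selB2 1 (selB2 0 (selB2 0 (selB2 0 (selB2 0 C0 9457469153924060397567) 91670711809) 125829642) 130866) 250) :=
  Ok2.run hw hf2 ⟨391,19,19,13,13⟩ 58
    (.chk false 2048)
    (by decide +kernel)

theorem p0_2_21 : Ok2 par f2 (((((((Box3.unit.r 1).r 0).r 1).r 0).l 1).r 0).l 1) (selB2 0 (selB2 0 (selB2 0 (selB2 0 C0 9457469153924060397567) 91670711809) 125829642) 130866) :=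
  Ok2.run hw hf2 ⟨389,19,19,13,13⟩ 58
    (.chk false 2048)
    (by decide +kernel)

theorem p0_2_22 : Ok2 par f2 ((((((Box3.unit.r 1).r 0).r 1).r 0).l 1).l 0) (selB2 0 (selB2 0 (selB2 0 (selB2 0 C0 9457469153924060397567) 91670711809) 125829642) 130866) :=
  Ok2.run hw hf2 ⟨368,19,19,13,13⟩ 58
    (.chk false 2048)
    (by decide +kernel)

theorem p0_2_23 : Ok2 par f2 (((((Box3.unit.r 1).r 0).r 1).r 0).l 1) (selB2 1 (selB2 0 (selB2 0 (selB2 0 C0 9457469153924060397567) 91670711809) 125829642) 130866) :=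
  Ok2.run hw hf2 ⟨352,19,19,13,13⟩ 58
    (.chk false 2048)
    (by decide +kernel)

theorem p0_2_24 : Ok2 par f2 (((((((Box3.unit.r 1).r 0).r 1).r 0).r 1).r 0).l 1) (selB2 1 (selB2 0 (selB2 0 (selB2 0 (selB2 0 C0 9457469153924060397567) 91670711809) 125829642) 692455) 510) :=
  Ok2.run hw hf2 ⟨393,19,19,13,13⟩ 58
    (.chk false 2048)
    (by decide +kernel)

theorem p0_2_25 : Ok2 par f2 (((((((Box3.unit.r 1).r 0).r 1).r 0).r 1).r 0).l 1) (selB2 0 (selB2 0 (selB2 0 (selB2 0 (selB2 0 C0 9457469153924060397567) 91670711809) 125829642) 692455) 510) :=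
  Ok2.run hw hf2 ⟨484,19,19,13,13⟩ 58
    (.split 0 (.chk false 2048) (.split 1 (.chk false 2048) (.part 1 (.chk false 2048) (.split 0 (.chk false 0) (.split 2 (.chk false 0) (.split 1 (.chk false 0) (.chk false 0)))))))
    (by decide +kernel)

theorem p0_2_26 : Ok2 par f2 ((((((((Box3.unit.r 1).r 0).r 1).r 0).r 1).r 0).r 1).l 0) (selB2 0 (selB2 0 (selB2 0 (selB2 0 (selB2 0 C0 9457469153924060397567) 91670711809) 125829642) 692455) 751) :=
  Ok2.run hw hf2 ⟨411,19,19,13,13⟩ 58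
    (.chk false 0)
    (by decide +kernel)


end Crest.Agent.R163.P2
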